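import Vale.Agent.Lib.P123.Berger

/-!
# P123 (Crouzeix's conjecture): powers of affine polynomials

Let `A` be a bounded operator on a nonzero complex inner product space `H` (completeness is not
needed) and let `P(z) = (a z + b) ^ n` with `a, b` complex and `n` a natural number.  If
`|P(z)| ≤ K` for every point `z = ⟪x, A x⟫`, `‖x‖ = 1`, of the numerical range of `A`, then
`‖P(A)‖ ≤ 2 * K`.  So Crouzeix's inequality with the conjectured constant `2` holds for every
operator and every such polynomial, in particular for every monomial and every polynomial of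
degree at most one.
-/

namespace Vale.Agent.Results.P123.AffinePowers

open scoped InnerProductSpace
open Vale.Agent.Lib.P123

theorem result {H : Type*} [NormedAddCommGroup H] [InnerProductSpace ℂ H] [Nontrivial H]
    (A : H →L[ℂ] H) (a b : ℂ) (n : ℕ) (K : ℝ)
    (hK : ∀ x : H, ‖x‖ = 1 →
      ‖((Polynomial.C a * Polynomial.X + Polynomial.C b) ^ n).eval ⟪x, A x⟫_ℂ‖ ≤ K) :
    ‖Polynomial.aeval A ((Polynomial.C a * Polynomial.X + Polynomial.C b) ^ n)‖ ≤ 2 * K := by
  have h1 : Polynomial.aeval A ((Polynomial.C a * Polynomial.X + Polynomial.C b) ^ n)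
      = (a • A + b • (1 : H →L[ℂ] H)) ^ n := by
    simp only [map_pow, map_add, map_mul, Polynomial.aeval_C, Polynomial.aeval_X,
      Algebra.algebraMap_eq_smul_one, smul_mul_assoc, one_mul]
  rw [h1]
  apply norm_affine_pow_le A a b n K
  intro x hx
  have h2 := hK x hx
  simpa only [Polynomial.eval_pow, Polynomial.eval_add, Polynomial.eval_mul, Polynomial.eval_C,
    Polynomial.eval_X] using h2

end Vale.Agent.Results.P123.AffinePowers
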